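import Mathlib

/-!
# Seymour's second neighbourhood conjecture

Independent, self-contained formalisation (helper578) of the team's proof:
294's inequality (G) for an arc-minimal counterexample together with 424's key lemma
(note 22781) comparing the two cut problems.
-/

set_option linter.unusedSectionVars false

namespace Vale.Agent.P038.H578

open Finset

variable {V : Type*} [Fintype V] [DecidableEq V]

/-- Closed out-neighbourhood of a set; `D u` is the set of out-neighbours of `u`. -/
def N (D : V → Finset V) (S : Finset V) : Finset V := S ∪ S.biUnion D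

lemma mem_N {D : V → Finset V} {S : Finset V} {v : V} :
    v ∈ N D S ↔ v ∈ S ∨ ∃ u ∈ S, v ∈ D u := by
  simp [N]

lemma N_union (D : V → Finset V) (S T : Finset V) : N D (S ∪ T) = N D S ∪ N D T := by
  ext v
  simp only [mem_N, mem_union]
  constructor
  · rintro ((h | h) | ⟨u, hu | hu, hv⟩)
    · exact Or.inl (Or.inl h)
    · exact Or.inr (Or.inl h)
    · exact Or.inl (Or.inr ⟨u, hu, hv⟩)
    · exact Or.inr (Or.inr ⟨u, hu, hv⟩)
  · rintro ((h | ⟨u, hu, hv⟩) | (h | ⟨u, hu, hv⟩))
    · exact Or.inl (Or.inl h)
    · exact Or.inr ⟨u, Or.inl hu, hv⟩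
    · exact Or.inl (Or.inr h)
    · exact Or.inr ⟨u, Or.inr hu, hv⟩

lemma N_mono (D : V → Finset V) {S T : Finset V} (h : S ⊆ T) : N D S ⊆ N D T := by
  intro v hv
  rw [mem_N] at hv ⊢
  rcases hv with hv | ⟨u, hu, hv⟩
  · exact Or.inl (h hv)
  · exact Or.inr ⟨u, h hu, hv⟩

lemma subset_N (D : V → Finset V) (S : Finset V) : S ⊆ N D S := by
  intro v hv
  rw [mem_N]
  exact Or.inl hv

/-- Row-wise intersection over closed in-neighbourhoods. -/
def A (D : V → Finset V) (S : V → Finset V) (y : V) : Finset V :=
  univ.filter fun v => ∀ x, (x = y ∨ y ∈ D x) → v ∈ S x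

lemma mem_A {D : V → Finset V} {S : V → Finset V} {y v : V} :
    v ∈ A D S y ↔ ∀ x, (x = y ∨ y ∈ D x) → v ∈ S x := by
  simp [A]

/-- `F l S = |N[S]| - l |S|`. -/
def F (D : V → Finset V) (l : ℚ) (S : Finset V) : ℚ := ((N D S).card : ℚ) - l * (S.card : ℚ)

lemma F_submod (D : V → Finset V) (l : ℚ) (Z B : Finset V) :
    F D l (Z ∩ B) + F D l (Z ∪ B) ≤ F D l Z + F D l B := by
  have h1 : ((Z ∪ B).card : ℚ) + ((Z ∩ B).card : ℚ) = Z.card + B.card := by
    exact_mod_cast Finset.card_union_add_card_inter Z B
  have h2 : (((N D Z) ∪ (N D B)).card : ℚ) + (((N D Z) ∩ (N D B)).card : ℚ)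
      = (N D Z).card + (N D B).card := by
    exact_mod_cast Finset.card_union_add_card_inter (N D Z) (N D B)
  have h3 : ((N D (Z ∩ B)).card : ℚ) ≤ (((N D Z) ∩ (N D B)).card : ℚ) := by
    exact_mod_cast Finset.card_le_card
      (Finset.subset_inter (N_mono D inter_subset_left) (N_mono D inter_subset_right))
  unfold F
  rw [N_union]
  have h4 : l * ((Z ∩ B).card : ℚ) + l * ((Z ∪ B).card : ℚ) = l * Z.card + l * B.card := by
    rw [← mul_add, ← mul_add, ← h1]; ring
  linarith

lemma F_change (D : V → Finset V) (l m : ℚ) (S : Finset V) :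
    F D l S = F D m S + (m - l) * (S.card : ℚ) := by
  unfold F; ring

/-- The key lemma (424). -/
theorem key (D : V → Finset V) (U : V → Finset V) : ∀ (n : ℕ) (B : V → Finset V) (l : ℚ),
    (∑ a, (U a \ B a).card = n) → (∀ a, B a ⊆ U a) →
    (∀ a P, B a ⊆ P → P ⊆ U a → F D l (B a) ≤ F D l P) →
    (∀ Y : V → Finset V, (∀ a, B a ⊆ Y a) → (∀ a, Y a ⊆ U a) →
      ∑ a, ((U a).card : ℚ) + ∑ a, ((A D Y a).card : ℚ)
        ≤ ∑ a, ((A D U a).card : ℚ) + ∑ a, ((Y a).card : ℚ)) →
    ∑ a, F D l (A D B a) + ∑ a, F D l (U a) ≤ ∑ a, F D l (A D U a) + ∑ a, F D l (B a) := by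
  intro n
  induction n using Nat.strong_induction_on with
  | _ n ih =>
  intro B l hn hBU hR hC
  by_cases hall : ∀ a, B a = U a
  · have : B = U := funext hall
    subst this
    exact le_rfl
  push Not at hall
  obtain ⟨a0, ha0⟩ := hall
  -- choose the pair of minimal ratio
  let cand : Finset (V × Finset V) := univ.filter fun p => B p.1 ⊂ p.2 ∧ p.2 ⊆ U p.1
  have hne : cand.Nonempty := by
    refine ⟨(a0, U a0), ?_⟩
    simp only [cand, mem_filter, mem_univ, true_and]
    exact ⟨(hBU a0).ssubset_of_ne ha0, subset_rfl⟩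
  let ρ : V × Finset V → ℚ := fun p =>
    (((N D p.2).card : ℚ) - ((N D (B p.1)).card : ℚ)) / ((p.2.card : ℚ) - ((B p.1).card : ℚ))
  obtain ⟨⟨a, P⟩, hmem, hmin⟩ := Finset.exists_min_image cand ρ hne
  simp only [cand, mem_filter, mem_univ, true_and] at hmem
  obtain ⟨hBP, hPU⟩ := hmem
  have hpos : (0 : ℚ) < (P.card : ℚ) - ((B a).card : ℚ) := by
    have := Finset.card_lt_card hBP
    have : ((B a).card : ℚ) < (P.card : ℚ) := by exact_mod_cast this
    linarith
  set m : ℚ := ρ (a, P) with hm
  have hmval : m * ((P.card : ℚ) - ((B a).card : ℚ))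
      = ((N D P).card : ℚ) - ((N D (B a)).card : ℚ) := by
    rw [hm]
    simp only [ρ]
    rw [div_mul_cancel₀]
    exact ne_of_gt hpos
  have hlm : l ≤ m := by
    have h := hR a P hBP.subset hPU
    unfold F at h
    have h2 : l * ((P.card : ℚ) - ((B a).card : ℚ)) ≤ m * ((P.card : ℚ) - ((B a).card : ℚ)) := by
      rw [hmval]; linarith
    exact le_of_mul_le_mul_right h2 hpos
  have hRm : ∀ a' P', B a' ⊆ P' → P' ⊆ U a' → F D m (B a') ≤ F D m P' := by
    intro a' P' h1 h2
    by_cases heq : B a' = P'
    · rw [heq]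
    have hss : B a' ⊂ P' := h1.ssubset_of_ne heq
    have hp' : (0 : ℚ) < (P'.card : ℚ) - ((B a').card : ℚ) := by
      have := Finset.card_lt_card hss
      have : ((B a').card : ℚ) < (P'.card : ℚ) := by exact_mod_cast this
      linarith
    have h3 := hmin (a', P') (by simp only [cand, mem_filter, mem_univ, true_and]; exact ⟨hss, h2⟩)
    have h4 : m ≤ (((N D P').card : ℚ) - ((N D (B a')).card : ℚ)) /
        ((P'.card : ℚ) - ((B a').card : ℚ)) := h3
    rw [le_div_iff₀ hp'] at h4
    unfold F
    linarith
  have hFeq : F D m P = F D m (B a) := by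
    unfold F
    linarith
  let Y : V → Finset V := Function.update B a P
  have hYa : Y a = P := Function.update_self a P B
  have hYne : ∀ b, b ≠ a → Y b = B b := fun b hb => Function.update_of_ne hb P B
  have hBY : ∀ b, B b ⊆ Y b := by
    intro b
    by_cases hb : b = a
    · subst hb; rw [hYa]; exact hBP.subset
    · rw [hYne b hb]
  have hYU : ∀ b, Y b ⊆ U b := by
    intro b
    by_cases hb : b = a
    · subst hb; rw [hYa]; exact hPU
    · rw [hYne b hb]; exact hBU b
  have hFY : ∀ b, F D m (Y b) = F D m (B b) := by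
    intro b
    by_cases hb : b = a
    · subst hb; rw [hYa]; exact hFeq
    · rw [hYne b hb]
  have hlt : ∑ b, (U b \ Y b).card < n := by
    rw [← hn]
    apply Finset.sum_lt_sum
    · intro b _
      exact Finset.card_le_card (Finset.sdiff_subset_sdiff subset_rfl (hBY b))
    · refine ⟨a, mem_univ a, ?_⟩
      rw [hYa]
      apply Finset.card_lt_card
      refine ⟨Finset.sdiff_subset_sdiff subset_rfl hBP.subset, ?_⟩
      obtain ⟨x, hxP, hxB⟩ := Finset.exists_of_ssubset hBP
      intro hcon
      have := hcon (mem_sdiff.2 ⟨hPU hxP, hxB⟩)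
      exact (mem_sdiff.1 this).2 hxP
  have hIH := ih _ hlt Y m rfl hYU
    (by
      intro b Q h1 h2
      rw [hFY b]
      exact hRm b Q ((hBY b).trans h1) h2)
    (by
      intro Z h1 h2
      exact hC Z (fun b => (hBY b).trans (h1 b)) h2)
  -- comparison of AB and AY
  have hAB : ∀ y, F D m (A D B y) ≤ F D m (A D Y y) := by
    intro y
    have claim : ∀ s : Finset V, (∀ x ∈ s, x = y ∨ y ∈ D x) →
        F D m ((A D Y y).filter fun v => ∀ x ∈ s, v ∈ B x) ≤ F D m (A D Y y) := by
      intro s
      induction s using Finset.induction_on with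
      | empty => intro _; simp
      | insert x s hx ihs =>
        intro hs
        have hs' : ∀ x' ∈ s, x' = y ∨ y ∈ D x' := fun x' h => hs x' (mem_insert_of_mem h)
        have hxy := hs x (mem_insert_self x s)
        set Z := (A D Y y).filter fun v => ∀ x ∈ s, v ∈ B x with hZ
        have hZsub : Z ⊆ U x := by
          intro v hv
          have hv' : v ∈ A D Y y := (mem_filter.1 hv).1
          exact hYU x ((mem_A.1 hv') x hxy)
        have heq : ((A D Y y).filter fun v => ∀ x' ∈ insert x s, v ∈ B x') = Z ∩ B x := by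
          ext v
          simp only [hZ, mem_filter, mem_inter, mem_insert, forall_eq_or_imp]
          tauto
        rw [heq]
        have h1 := F_submod D m Z (B x)
        have h2 := hRm x (Z ∪ B x) subset_union_right (union_subset hZsub (hBU x))
        have h3 := ihs hs'
        linarith
    have h := claim (univ.filter fun x => x = y ∨ y ∈ D x) (by intro x hx; simpa using hx)
    have heq : ((A D Y y).filter fun v => ∀ x ∈ (univ.filter fun x => x = y ∨ y ∈ D x), v ∈ B x)
        = A D B y := by
      ext v
      simp only [mem_filter, mem_univ, true_and, mem_A]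
      constructor
      · rintro ⟨_, h⟩; exact h
      · intro h
        exact ⟨fun x hx => hBY x (h x hx), h⟩
    rwa [heq] at h
  have hABs : ∑ a, F D m (A D B a) ≤ ∑ a, F D m (A D Y a) := Finset.sum_le_sum fun y _ => hAB y
  have hYs : ∑ a, F D m (Y a) = ∑ a, F D m (B a) := Finset.sum_congr rfl fun b _ => hFY b
  have hch : ∀ S : V → Finset V, ∑ a, F D l (S a)
      = ∑ a, F D m (S a) + (m - l) * ∑ a, ((S a).card : ℚ) := by
    intro S
    rw [Finset.mul_sum, ← Finset.sum_add_distrib]
    exact Finset.sum_congr rfl fun b _ => F_change D l m (S b)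
  rw [hch (A D B), hch U, hch (A D U), hch B]
  have hCB := hC B (fun _ => subset_rfl) hBU
  have hml : 0 ≤ m - l := by linarith
  have hprod := mul_le_mul_of_nonneg_left hCB hml
  rw [mul_add, mul_add] at hprod
  linarith

/-! ### Outer pairs -/

/-- `(B,C)` is an outer pair: rows contain closed out-neighbourhoods and are orthogonal. -/
def Outer (D : V → Finset V) (B C : V → Finset V) : Prop :=
  (∀ a, N D {a} ⊆ B a) ∧ (∀ a, N D {a} ⊆ C a) ∧ ∀ a b, b ∈ B a → a ∈ C b → a = b

/-- cost of a family. -/
def cost (D : V → Finset V) (B : V → Finset V) : ℚ := ∑ a, F D 1 (B a)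

lemma mem_Na {D : V → Finset V} {a b : V} : b ∈ N D {a} ↔ b = a ∨ b ∈ D a := by
  rw [mem_N]; simp

lemma sum_card_ind (S : V → Finset V) :
    ∑ a, ((S a).card : ℚ) = ∑ a, ∑ b, (if b ∈ S a then (1 : ℚ) else 0) := by
  refine Finset.sum_congr rfl fun a _ => ?_
  rw [Finset.sum_boole]
  congr 2
  ext; simp

lemma count_eq (S T : V → Finset V) (h : ∀ a b, a ≠ b → (a ∈ S b ↔ b ∉ T a))
    (hd : ∀ a, a ∈ S a ∧ a ∈ T a) :
    ∑ a, ((S a).card : ℚ) + ∑ a, ((T a).card : ℚ) = ∑ _a : V, ∑ _b : V, (1 : ℚ) + ∑ _a : V, (1 : ℚ) := by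
  rw [sum_card_ind S, sum_card_ind T, Finset.sum_comm (f := fun a b => if b ∈ S a then (1 : ℚ) else 0),
    ← Finset.sum_add_distrib, ← Finset.sum_add_distrib]
  refine Finset.sum_congr rfl fun a _ => ?_
  have h1 : (∑ _b : V, (1 : ℚ)) + 1 = ∑ b : V, (1 + if b = a then (1 : ℚ) else 0) := by
    rw [Finset.sum_add_distrib]; simp
  rw [← Finset.sum_add_distrib, h1]
  refine Finset.sum_congr rfl fun b _ => ?_
  by_cases hab : b = a
  · subst hab
    rw [if_pos (hd b).1, if_pos (hd b).2]; simp
  · have := h a b (Ne.symm hab)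
    by_cases hb : b ∈ T a
    · rw [if_neg (fun h' => (this.1 h') hb), if_pos hb, if_neg hab]; ring
    · rw [if_pos (this.2 hb), if_neg hb, if_neg hab]

lemma count_le (S T : V → Finset V) (h : ∀ a b, a ≠ b → a ∈ S b → b ∈ T a → False) :
    ∑ a, ((S a).card : ℚ) + ∑ a, ((T a).card : ℚ) ≤ ∑ _a : V, ∑ _b : V, (1 : ℚ) + ∑ _a : V, (1 : ℚ) := by
  rw [sum_card_ind S, sum_card_ind T, Finset.sum_comm (f := fun a b => if b ∈ S a then (1 : ℚ) else 0),
    ← Finset.sum_add_distrib, ← Finset.sum_add_distrib]
  refine Finset.sum_le_sum fun a _ => ?_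
  have h1 : (∑ _b : V, (1 : ℚ)) + 1 = ∑ b : V, (1 + if b = a then (1 : ℚ) else 0) := by
    rw [Finset.sum_add_distrib]; simp
  rw [← Finset.sum_add_distrib, h1]
  refine Finset.sum_le_sum fun b _ => ?_
  by_cases hab : b = a
  · subst hab
    rw [if_pos rfl]
    split_ifs <;> norm_num
  · rw [if_neg hab]
    by_cases hb : b ∈ T a
    · rw [if_neg (fun h' => h a b (Ne.symm hab) h' hb), if_pos hb]; norm_num
    · rw [if_neg hb]
      split_ifs <;> norm_num

/-- The complement-transpose of `C`, plus the diagonal. -/
def Uof (C : V → Finset V) (a : V) : Finset V := univ.filter fun b => b = a ∨ a ∉ C b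

lemma mem_Uof {C : V → Finset V} {a b : V} : b ∈ Uof C a ↔ b = a ∨ a ∉ C b := by
  simp [Uof]

lemma cost_eq (D : V → Finset V) (S : V → Finset V) :
    cost D S = ∑ a, ((N D (S a)).card : ℚ) - ∑ a, ((S a).card : ℚ) := by
  unfold cost F
  rw [← Finset.sum_sub_distrib]
  exact Finset.sum_congr rfl fun a _ => by ring

section Main

variable {D : V → Finset V} (hor : ∀ u v, v ∈ D u → u ∉ D v)
include hor

lemma irr (u : V) : u ∉ D u := fun h => hor u u h h

/-- column cost: for `B ⊆ Y ⊆ U` the complement-transpose family has cost `|Y| - |AY|`. -/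
lemma cost_compl {B C : V → Finset V} (hBC : Outer D B C) (Y : V → Finset V)
    (hBY : ∀ a, B a ⊆ Y a) (hYU : ∀ a, Y a ⊆ Uof C a) :
    Outer D B (Uof Y) ∧
      cost D (Uof Y) = ∑ a, ((Y a).card : ℚ) - ∑ a, ((A D Y a).card : ℚ) := by
  obtain ⟨hB, hC, hO⟩ := hBC
  have hout : Outer D B (Uof Y) := by
    refine ⟨hB, ?_, ?_⟩
    · intro b a ha
      rw [mem_Uof]
      by_cases hab : a = b
      · exact Or.inl hab
      right
      intro hbY
      have := hYU a hbY
      rw [mem_Uof] at this
      rcases this with h | h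
      · exact hab h.symm
      · exact h (hC b ha)
    · intro a b hb ha
      rw [mem_Uof] at ha
      rcases ha with h | h
      · exact h
      · exact absurd (hBY a hb) h
  refine ⟨hout, ?_⟩
  rw [cost_eq]
  have e1 := count_eq (Uof Y) Y (by
      intro a b hab
      rw [mem_Uof]
      constructor
      · rintro (h | h)
        · exact absurd h hab
        · exact h
      · intro h; exact Or.inr h)
    (by
      intro a
      refine ⟨by rw [mem_Uof]; exact Or.inl rfl, hBY a (hB a ?_)⟩
      rw [mem_Na]; exact Or.inl rfl)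
  have e2 := count_eq (fun b => N D (Uof Y b)) (A D Y) (by
      intro a b hab
      constructor
      · intro h hA
        rw [mem_N] at h
        have hA' := mem_A.1 hA
        rcases h with h | ⟨x, hx, hax⟩
        · rw [mem_Uof] at h
          rcases h with h | h
          · exact hab h
          · exact h (hA' a (Or.inl rfl))
        · rw [mem_Uof] at hx
          rcases hx with h | h
          · subst h
            -- x → a, and x ∈ Y a
            have h1 := hYU a (hA' a (Or.inl rfl))
            rw [mem_Uof] at h1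
            rcases h1 with h1 | h1
            · exact hab h1.symm
            · exact h1 (hC x (by rw [mem_Na]; exact Or.inr hax))
          · exact h (hA' x (Or.inr hax))
      · intro h
        rw [mem_A] at h
        push Not at h
        obtain ⟨x, hx, hbx⟩ := h
        rw [mem_N]
        rcases hx with hx | hx
        · subst hx
          left; rw [mem_Uof]; exact Or.inr hbx
        · right
          exact ⟨x, by rw [mem_Uof]; exact Or.inr hbx, hx⟩)
    (by
      intro a
      refine ⟨subset_N D _ (by rw [mem_Uof]; exact Or.inl rfl), ?_⟩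
      rw [mem_A]
      intro x hx
      apply hBY x
      apply hB x
      rw [mem_Na]
      rcases hx with hx | hx
      · exact Or.inl hx.symm
      · exact Or.inr hx)
  linarith

/-- The comparison of the inner and the outer problem. -/
theorem inner_le {B C : V → Finset V} (hBC : Outer D B C)
    (hmin : ∀ B' C', Outer D B' C' → cost D B + cost D C ≤ cost D B' + cost D C') :
    cost D (A D B) + cost D (A D C) ≤ cost D B + cost D C := by
  have hBC' := hBC
  obtain ⟨hB, hC, hO⟩ := hBC
  set U := Uof C with hU
  have hBU : ∀ a, B a ⊆ U a := by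
    intro a b hb
    rw [hU, mem_Uof]
    by_cases h : b = a
    · exact Or.inl h
    · exact Or.inr fun h' => h (hO a b hb h').symm
  have hUC : Uof U = C := by
    funext b
    ext a
    rw [mem_Uof, hU, mem_Uof]
    constructor
    · rintro (h | h)
      · subst h; exact hC a (by rw [mem_Na]; exact Or.inl rfl)
      · push Not at h
        exact h.2
    · intro h
      by_cases hab : a = b
      · exact Or.inl hab
      · right
        rintro (h' | h')
        · exact hab h'.symm
        · exact h' h
  have hcC := (cost_compl hor hBC' U hBU (fun a => subset_rfl)).2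
  rw [hUC] at hcC
  have hkey := key D U _ B 1 rfl hBU
    (by
      intro a P h1 h2
      have hout : Outer D (Function.update B a P) C := by
        refine ⟨?_, hC, ?_⟩
        · intro b
          by_cases hb : b = a
          · subst hb; rw [Function.update_self]; exact (hB b).trans h1
          · rw [Function.update_of_ne hb]; exact hB b
        · intro b c hc hbc
          by_cases hb : b = a
          · subst hb
            rw [Function.update_self] at hc
            have := h2 hc
            rw [hU, mem_Uof] at this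
            rcases this with h | h
            · exact h.symm
            · exact absurd hbc h
          · rw [Function.update_of_ne hb] at hc
            exact hO b c hc hbc
      have h3 := hmin _ _ hout
      have h4 : cost D (Function.update B a P) = cost D B + (F D 1 P - F D 1 (B a)) := by
        unfold cost
        rw [← Finset.add_sum_erase univ (fun b => F D 1 (Function.update B a P b)) (mem_univ a),
          ← Finset.add_sum_erase univ (fun b => F D 1 (B b)) (mem_univ a)]
        rw [Function.update_self]
        have : ∑ b ∈ univ.erase a, F D 1 (Function.update B a P b)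
            = ∑ b ∈ univ.erase a, F D 1 (B b) := by
          refine Finset.sum_congr rfl fun b hb => ?_
          rw [Function.update_of_ne (ne_of_mem_erase hb)]
        rw [this]; ring
      linarith)
    (by
      intro Y h1 h2
      obtain ⟨h3, h4⟩ := cost_compl hor hBC' Y h1 h2
      have h5 := hmin _ _ h3
      rw [h4, hcC] at h5
      linarith)
  -- the cost of AC
  have e1 := count_eq (A D C) (fun a => N D (U a)) (by
      intro a b hab
      constructor
      · intro h hN
        have h' := mem_A.1 h
        rw [mem_N] at hN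
        rcases hN with hN | ⟨x, hx, hbx⟩
        · rw [hU, mem_Uof] at hN
          rcases hN with hN | hN
          · exact hab hN.symm
          · exact hN (h' b (Or.inl rfl))
        · rw [hU, mem_Uof] at hx
          rcases hx with hx | hx
          · subst hx
            exact hab (hO x b (hB x (by rw [mem_Na]; exact Or.inr hbx)) (h' b (Or.inl rfl)))
          · exact hx (h' x (Or.inr hbx))
      · intro h
        rw [mem_A]
        intro x hx
        by_contra hax
        apply h
        rw [mem_N]
        rcases hx with hx | hx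
        · subst hx
          left; rw [hU, mem_Uof]; exact Or.inr hax
        · right
          exact ⟨x, by rw [hU, mem_Uof]; exact Or.inr hax, hx⟩)
    (by
      intro a
      refine ⟨?_, subset_N D _ (by rw [hU, mem_Uof]; exact Or.inl rfl)⟩
      rw [mem_A]
      intro x hx
      apply hC x
      rw [mem_Na]
      rcases hx with hx | hx
      · exact Or.inl hx.symm
      · exact Or.inr hx)
  have e2 := count_le (fun b => N D (A D C b)) (fun a => N D (A D U a)) (by
      intro a b hab h1 h2
      simp only [mem_N] at h1 h2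
      -- y ∈ (AC)_b with y ∈ N^-[a], z ∈ (AU)_a with z ∈ N^-[b]
      obtain ⟨y, hy, hya⟩ : ∃ y, y ∈ A D C b ∧ (y = a ∨ a ∈ D y) := by
        rcases h1 with h1 | ⟨y, hy, hya⟩
        · exact ⟨a, h1, Or.inl rfl⟩
        · exact ⟨y, hy, Or.inr hya⟩
      obtain ⟨z, hz, hzb⟩ : ∃ z, z ∈ A D U a ∧ (z = b ∨ b ∈ D z) := by
        rcases h2 with h2 | ⟨z, hz, hzb⟩
        · exact ⟨b, h2, Or.inl rfl⟩
        · exact ⟨z, hz, Or.inr hzb⟩
      have h3 : y ∈ C z := (mem_A.1 hy) z hzb
      have h4 : z ∈ U y := (mem_A.1 hz) y hya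
      rw [hU, mem_Uof] at h4
      have h5 : z = y := by
        rcases h4 with h4 | h4
        · exact h4
        · exact absurd h3 h4
      subst h5
      have h6 : z ∈ U a := (mem_A.1 hz) a (Or.inl rfl)
      have h7 : a ∈ C z := hC z (by
        rw [mem_Na]
        rcases hya with h | h
        · exact Or.inl h.symm
        · exact Or.inr h)
      rw [hU, mem_Uof] at h6
      have h8 : z = a := by
        rcases h6 with h | h
        · exact h
        · exact absurd h7 h
      subst h8
      have h9 : z ∈ C b := (mem_A.1 hy) b (Or.inl rfl)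
      rcases hzb with h | h
      · exact hab h
      · exact hab (hO z b (hB z (by rw [mem_Na]; exact Or.inr h)) h9))
  have hcB : cost D B = ∑ a, F D 1 (B a) := rfl
  have hcAB : cost D (A D B) = ∑ a, F D 1 (A D B a) := rfl
  have hFU : ∑ a, F D 1 (U a) = cost D U := rfl
  have hFAU : ∑ a, F D 1 (A D U a) = cost D (A D U) := rfl
  rw [hFU, hFAU, cost_eq D U, cost_eq D (A D U)] at hkey
  rw [← hcB, ← hcAB] at hkey
  rw [cost_eq D (A D C), hcC]
  linarith

/-- The closed neighbourhoods of the inner pair form an outer pair. -/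
lemma outer_of_inner {B C : V → Finset V} (hBC : Outer D B C) :
    Outer D (fun a => N D (A D B a)) (fun a => N D (A D C a)) := by
  obtain ⟨hB, hC, hO⟩ := hBC
  have hself : ∀ (S : V → Finset V), (∀ a, N D {a} ⊆ S a) → ∀ a, a ∈ A D S a := by
    intro S hS a
    rw [mem_A]
    intro x hx
    apply hS x
    rw [mem_Na]
    rcases hx with hx | hx
    · exact Or.inl hx.symm
    · exact Or.inr hx
  refine ⟨fun a => N_mono D (singleton_subset_iff.2 (hself B hB a)),
    fun a => N_mono D (singleton_subset_iff.2 (hself C hC a)), ?_⟩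
  intro a b hb ha
  simp only [mem_N] at hb ha
  obtain ⟨x, hx, hxb⟩ : ∃ x, x ∈ A D B a ∧ (x = b ∨ b ∈ D x) := by
    rcases hb with h | ⟨x, hx, h⟩
    · exact ⟨b, h, Or.inl rfl⟩
    · exact ⟨x, hx, Or.inr h⟩
  obtain ⟨y, hy, hya⟩ : ∃ y, y ∈ A D C b ∧ (y = a ∨ a ∈ D y) := by
    rcases ha with h | ⟨y, hy, h⟩
    · exact ⟨a, h, Or.inl rfl⟩
    · exact ⟨y, hy, Or.inr h⟩
  have hxy : y = x := hO y x ((mem_A.1 hx) y hya) ((mem_A.1 hy) x hxb)
  subst hxy
  have h1 : a = y := hO a y ((mem_A.1 hx) a (Or.inl rfl)) (hC y (by
    rw [mem_Na]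
    rcases hya with h | h
    · exact Or.inl h.symm
    · exact Or.inr h))
  have h2 : y = b := hO y b (hB y (by
    rw [mem_Na]
    rcases hxb with h | h
    · exact Or.inl h.symm
    · exact Or.inr h)) ((mem_A.1 hy) b (Or.inl rfl))
  exact h1.trans h2

end Main

/-! ### Arc-minimal counterexamples and 294's inequality (G) -/

/-- second out-neighbourhood. -/
def N2 (D : V → Finset V) (v : V) : Finset V :=
  univ.filter fun w => w ≠ v ∧ w ∉ D v ∧ ∃ u ∈ D v, w ∈ D u

lemma mem_N2 {D : V → Finset V} {v w : V} :
    w ∈ N2 D v ↔ w ≠ v ∧ w ∉ D v ∧ ∃ u ∈ D v, w ∈ D u := by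
  simp [N2]

/-- counterexample. -/
def CE (D : V → Finset V) : Prop :=
  (∀ u v, v ∈ D u → u ∉ D v) ∧ ∀ v, (N2 D v).card < (D v).card

/-- 294's inequality (G). -/
theorem ineqG {D : V → Finset V} (hCE : CE D)
    (hmin : ∀ D' : V → Finset V, CE D' → ∑ v, (D v).card ≤ ∑ v, (D' v).card)
    (X : Finset V) (hX : N D X ≠ X) : F D 1 (N D X) < F D 1 X := by
  by_contra hcon
  push Not at hcon
  set L : Finset V := N D X \ X with hL
  have hXL : N D X = X ∪ L := by
    rw [hL, Finset.union_sdiff_of_subset (subset_N D X)]
  have hLne : L.Nonempty := by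
    rw [Finset.nonempty_iff_ne_empty]
    intro h
    rw [h, union_empty] at hXL
    exact hX hXL
  let g : Finset V → ℤ := fun T => ((N D T ∪ X).card : ℤ) - 2 * (T.card : ℤ)
  have hne : (L.powerset.erase L).Nonempty := by
    refine ⟨∅, ?_⟩
    rw [mem_erase, mem_powerset]
    exact ⟨fun h => hLne.ne_empty h.symm, empty_subset L⟩
  obtain ⟨T, hT, hTmin⟩ := Finset.exists_min_image (L.powerset.erase L) g hne
  rw [mem_erase, mem_powerset] at hT
  obtain ⟨hTne, hTL⟩ := hT
  have hg0 : g T ≤ g ∅ := hTmin ∅ (by
    rw [mem_erase, mem_powerset]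
    exact ⟨fun h => hLne.ne_empty h.symm, empty_subset L⟩)
  have hN0 : N D (∅ : Finset V) = ∅ := by
    simp [N]
  have hgL : g ∅ ≤ g L := by
    have h1 : N D L ∪ X = N D (N D X) := by
      conv_rhs => rw [hXL]
      rw [N_union, hXL]
      ext v
      simp only [mem_union]
      constructor
      · rintro (h | h)
        · exact Or.inr h
        · exact Or.inl (Or.inl h)
      · rintro ((h | h) | h)
        · exact Or.inr h
        · exact Or.inl (subset_N D L h)
        · exact Or.inl h
    have h2 : (N D X).card = X.card + L.card := by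
      rw [hXL, Finset.card_union_of_disjoint]
      rw [hL]
      exact Finset.disjoint_sdiff
    have h3 : ((X.card : ℚ)) + 2 * (L.card : ℚ) ≤ ((N D (N D X)).card : ℚ) := by
      unfold F at hcon
      rw [h2] at hcon
      push_cast at hcon
      linarith
    have h4 : (X.card : ℤ) + 2 * (L.card : ℤ) ≤ ((N D (N D X)).card : ℤ) := by
      exact_mod_cast h3
    simp only [g, h1, hN0, empty_union, card_empty]
    push_cast
    linarith
  have hgmin : ∀ T' ⊆ L, g T ≤ g T' := by
    intro T' hT'
    by_cases h : T' = L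
    · rw [h]; exact hg0.trans hgL
    · exact hTmin T' (by rw [mem_erase, mem_powerset]; exact ⟨h, hT'⟩)
  let D' : V → Finset V := fun u => if u ∈ X then D u ∩ (X ∪ T) else D u
  have hD'1 : ∀ u, u ∈ X → D' u = D u ∩ (X ∪ T) := fun u hu => if_pos hu
  have hD'2 : ∀ u, u ∉ X → D' u = D u := fun u hu => if_neg hu
  have hsub : ∀ u, D' u ⊆ D u := by
    intro u
    by_cases hu : u ∈ X
    · rw [hD'1 u hu]; exact inter_subset_left
    · rw [hD'2 u hu]
  have hCE' : CE D' := by
    refine ⟨fun u v h h' => hCE.1 u v (hsub u h) (hsub v h'), ?_⟩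
    intro y
    by_cases hy : y ∈ X
    · set Dy : Finset V := D y \ (X ∪ T) with hDy
      set E : Finset V := N D Dy \ (N D T ∪ X) with hE
      have hDyL : Dy ⊆ L := by
        intro z hz
        rw [hDy, mem_sdiff, mem_union] at hz
        rw [hL, mem_sdiff, mem_N]
        exact ⟨Or.inr ⟨y, hy, hz.1⟩, fun h => hz.2 (Or.inl h)⟩
      have hdisjT : Disjoint T Dy := by
        rw [Finset.disjoint_left]
        intro z hz hz'
        rw [hDy, mem_sdiff, mem_union] at hz'
        exact hz'.2 (Or.inr hz)
      have hEcard : 2 * Dy.card ≤ E.card := by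
        have h1 := hgmin (T ∪ Dy) (union_subset hTL hDyL)
        have h2 : N D (T ∪ Dy) ∪ X = (N D T ∪ X) ∪ E := by
          rw [hE, Finset.union_sdiff_self_eq_union, N_union]
          ext v
          simp only [mem_union]
          tauto
        have hcE : (N D T ∪ X ∪ E).card = (N D T ∪ X).card + E.card :=
          Finset.card_union_of_disjoint (by rw [hE]; exact Finset.disjoint_sdiff)
        simp only [g] at h1
        rw [h2, hcE, Finset.card_union_of_disjoint hdisjT] at h1
        push_cast at h1
        have h3 : 2 * (Dy.card : ℤ) ≤ (E.card : ℤ) := by linarith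
        exact_mod_cast h3
      have hdisj : Disjoint (N2 D y) Dy := by
        rw [Finset.disjoint_left]
        intro z hz hz'
        rw [mem_N2] at hz
        rw [hDy, mem_sdiff] at hz'
        exact hz.2.1 hz'.1
      have hEsub : E ⊆ N2 D y ∪ Dy := by
        intro z hz
        rw [hE, mem_sdiff, mem_union, mem_N] at hz
        obtain ⟨h1, h2⟩ := hz
        rw [mem_union]
        rcases h1 with h1 | ⟨d, hd, hzd⟩
        · exact Or.inr h1
        · have hdy : d ∈ D y := by
            rw [hDy, mem_sdiff] at hd; exact hd.1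
          by_cases hzy : z ∈ D y
          · right
            rw [hDy, mem_sdiff, mem_union]
            refine ⟨hzy, ?_⟩
            rintro (h | h)
            · exact h2 (Or.inr h)
            · exact h2 (Or.inl (subset_N D T h))
          · left
            rw [mem_N2]
            refine ⟨?_, hzy, d, hdy, hzd⟩
            rintro rfl
            exact h2 (Or.inr hy)
      have hN2sub : N2 D' y ⊆ (N2 D y ∪ Dy) \ E := by
        intro z hz
        rw [mem_N2] at hz
        obtain ⟨hzy, hznot, c, hc, hzc⟩ := hz
        rw [hD'1 y hy] at hznot hc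
        rw [mem_inter] at hc
        rw [mem_sdiff, mem_union]
        constructor
        · by_cases hzD : z ∈ D y
          · right
            rw [hDy, mem_sdiff]
            exact ⟨hzD, fun h => hznot (mem_inter.2 ⟨hzD, h⟩)⟩
          · left
            rw [mem_N2]
            exact ⟨hzy, hzD, c, hc.1, hsub c hzc⟩
        · intro hzE
          rw [hE, mem_sdiff, mem_union] at hzE
          apply hzE.2
          by_cases hcX : c ∈ X
          · rw [hD'1 c hcX, mem_inter, mem_union] at hzc
            rcases hzc.2 with h | h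
            · exact Or.inr h
            · exact Or.inl (subset_N D T h)
          · rw [hD'2 c hcX] at hzc
            left
            rw [mem_N]
            right
            refine ⟨c, ?_, hzc⟩
            rcases mem_union.1 hc.2 with h | h
            · exact absurd h hcX
            · exact h
      have h1 : (N2 D' y).card ≤ ((N2 D y ∪ Dy) \ E).card := Finset.card_le_card hN2sub
      have h2 : ((N2 D y ∪ Dy) \ E).card + E.card = (N2 D y).card + Dy.card := by
        rw [Finset.card_sdiff_add_card_eq_card hEsub, Finset.card_union_of_disjoint hdisj]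
      have h3 : (D' y).card + Dy.card = (D y).card := by
        rw [hD'1 y hy, hDy]
        exact Finset.card_inter_add_card_sdiff (D y) (X ∪ T)
      have h4 := hCE.2 y
      omega
    · rw [hD'2 y hy]
      refine lt_of_le_of_lt (Finset.card_le_card ?_) (hCE.2 y)
      intro z hz
      rw [mem_N2] at hz ⊢
      rw [hD'2 y hy] at hz
      obtain ⟨h1, h2, u, hu, hzu⟩ := hz
      exact ⟨h1, h2, u, hu, hsub u hzu⟩
  have hle := hmin D' hCE'
  -- but an arc was deleted
  obtain ⟨l, hlL, hlT⟩ : ∃ l ∈ L, l ∉ T := by
    by_contra h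
    push Not at h
    exact hTne (Finset.Subset.antisymm hTL h)
  have hl := hlL
  rw [hL, mem_sdiff, mem_N] at hl
  obtain ⟨h1 | ⟨x, hx, hlx⟩, hlX⟩ := hl
  · exact hlX h1
  have hlt : ∑ v, (D' v).card < ∑ v, (D v).card := by
    apply Finset.sum_lt_sum
    · intro v _; exact Finset.card_le_card (hsub v)
    · refine ⟨x, mem_univ x, Finset.card_lt_card ⟨hsub x, ?_⟩⟩
      intro h
      have := h hlx
      rw [hD'1 x hx, mem_inter, mem_union] at this
      rcases this.2 with h | h
      · exact hlX h
      · exact hlT h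
  omega

/-- No counterexample exists. -/
theorem no_CE [Nonempty V] (D0 : V → Finset V) (h0 : CE D0) : False := by
  classical
  obtain ⟨D, hDmem, hDmin⟩ := Finset.exists_min_image
    (univ.filter fun D : V → Finset V => CE D) (fun D => ∑ v, (D v).card)
    ⟨D0, by simpa using h0⟩
  have hCE : CE D := (mem_filter.1 hDmem).2
  have hmin : ∀ D' : V → Finset V, CE D' → ∑ v, (D v).card ≤ ∑ v, (D' v).card :=
    fun D' h => hDmin D' (by simpa using h)
  have hor := hCE.1
  -- an optimal outer pair
  have houter0 : Outer D (fun a => N D {a}) (fun a => N D {a}) := by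
    refine ⟨fun a => subset_rfl, fun a => subset_rfl, ?_⟩
    intro a b hb ha
    rw [mem_Na] at ha hb
    rcases ha with h | h
    · exact h
    · rcases hb with h' | h'
      · exact h'.symm
      · exact absurd h (hor a b h')
  obtain ⟨⟨B, C⟩, hBCmem, hBCmin⟩ := Finset.exists_min_image
    (univ.filter fun p : (V → Finset V) × (V → Finset V) => Outer D p.1 p.2)
    (fun p => cost D p.1 + cost D p.2)
    ⟨(fun a => N D {a}, fun a => N D {a}), by simpa using houter0⟩
  have hBC : Outer D B C := (mem_filter.1 hBCmem).2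
  have hBCm : ∀ B' C', Outer D B' C' → cost D B + cost D C ≤ cost D B' + cost D C' :=
    fun B' C' h => hBCmin (B', C') (by simpa using h)
  have h1 := inner_le hor hBC hBCm
  have hout := outer_of_inner hor hBC
  have h2 := hBCm _ _ hout
  have hGle : ∀ S : Finset V, F D 1 (N D S) ≤ F D 1 S := by
    intro S
    by_cases h : N D S = S
    · rw [h]
    · exact (ineqG hCE hmin S h).le
  have hX : ∀ a, N D (A D B a) = A D B a := by
    by_contra hcon
    push Not at hcon
    obtain ⟨a, ha⟩ := hcon
    have h3 : cost D (fun a => N D (A D B a)) < cost D (A D B) :=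
      Finset.sum_lt_sum (fun b _ => hGle _) ⟨a, mem_univ a, ineqG hCE hmin _ ha⟩
    have h4 : cost D (fun a => N D (A D C a)) ≤ cost D (A D C) :=
      Finset.sum_le_sum (fun b _ => hGle _)
    linarith
  have hY : ∀ a, N D (A D C a) = A D C a := by
    by_contra hcon
    push Not at hcon
    obtain ⟨a, ha⟩ := hcon
    have h3 : cost D (fun a => N D (A D C a)) < cost D (A D C) :=
      Finset.sum_lt_sum (fun b _ => hGle _) ⟨a, mem_univ a, ineqG hCE hmin _ ha⟩
    have h4 : cost D (fun a => N D (A D B a)) ≤ cost D (A D B) :=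
      Finset.sum_le_sum (fun b _ => hGle _)
    linarith
  -- reachability
  let r : V → V → Prop := fun u v => v ∈ D u
  let R : V → Finset V := fun a => univ.filter fun b => Relation.ReflTransGen r a b
  have hmemR : ∀ a b, b ∈ R a ↔ Relation.ReflTransGen r a b := by
    intro a b; simp [R]
  obtain ⟨a, _, hamin⟩ := Finset.exists_min_image (univ : Finset V) (fun a => (R a).card)
    univ_nonempty
  have hDa : (D a).Nonempty := by
    rw [← Finset.card_pos]
    exact lt_of_le_of_lt (Nat.zero_le _) (hCE.2 a)
  obtain ⟨b, hb⟩ := hDa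
  have hRsub : R b ⊆ R a := by
    intro c hc
    rw [hmemR] at hc ⊢
    exact Relation.ReflTransGen.head hb hc
  have hReq : R b = R a := Finset.eq_of_subset_of_card_le hRsub (hamin b (mem_univ b))
  have hba : Relation.ReflTransGen r b a := by
    rw [← hmemR, hReq, hmemR]
  have hclosed : ∀ S : Finset V, N D S = S → ∀ u v, u ∈ S → Relation.ReflTransGen r u v → v ∈ S := by
    intro S hS u v hu huv
    induction huv with
    | refl => exact hu
    | tail _ hcd ih =>
      rw [← hS, mem_N]
      exact Or.inr ⟨_, ih, hcd⟩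
  have hself : ∀ (S : V → Finset V), (∀ a, N D {a} ⊆ S a) → ∀ a, a ∈ A D S a := by
    intro S hS a
    rw [mem_A]
    intro x hx
    apply hS x
    rw [mem_Na]
    rcases hx with hx | hx
    · exact Or.inl hx.symm
    · exact Or.inr hx
  have hbX : b ∈ A D B a := by
    rw [← hX a, mem_N]
    exact Or.inr ⟨a, hself B hBC.1 a, hb⟩
  have haY : a ∈ A D C b := hclosed _ (hY b) b a (hself C hBC.2.1 b) hba
  have hab : a = b := hout.2.2 a b
    (by show b ∈ N D (A D B a); rw [hX a]; exact hbX)
    (by show a ∈ N D (A D C b); rw [hY b]; exact haY)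
  subst hab
  exact hor a a hb hb

/-- **Seymour's second neighbourhood conjecture.** Every nonempty finite oriented graph has a
vertex whose second out-neighbourhood is at least as large as its first. -/
theorem seymour {V : Type*} [Finite V] [Nonempty V] (r : V → V → Prop)
    (hr : ∀ u v, r u v → ¬ r v u) :
    ∃ v, {u | r v u}.ncard ≤ {w | w ≠ v ∧ ¬ r v w ∧ ∃ u, r v u ∧ r u w}.ncard := by
  classical
  have := Fintype.ofFinite V
  by_contra hcon
  push Not at hcon
  let D : V → Finset V := fun u => univ.filter fun v => r u v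
  refine no_CE D ⟨?_, ?_⟩
  · intro u v h h'
    simp only [D, mem_filter, mem_univ, true_and] at h h'
    exact hr u v h h'
  · intro v
    have h := hcon v
    have e1 : {u | r v u}.ncard = (D v).card := by
      rw [← Set.ncard_coe_finset]
      congr 1
      ext u; simp [D]
    have e2 : {w | w ≠ v ∧ ¬ r v w ∧ ∃ u, r v u ∧ r u w}.ncard = (N2 D v).card := by
      rw [← Set.ncard_coe_finset]
      congr 1
      ext u; simp [D, N2]
    rw [e1, e2] at h
    exact h

end Vale.Agent.P038.H578
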